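import Mathlib
import Crest.Prelude.Def_QState

/-!
Trace functions of Hermitian complex matrices: unitary diagonalisations, sums of a function over
the eigenvalues, diagonal entries in an orthonormal basis and the Peierls-Jensen inequality.
-/

set_option autoImplicit false

namespace Crest.Agent.Lib.QEnt

open Matrix
open scoped ComplexOrder

variable {n : Type*} [Fintype n] [DecidableEq n]

/-- `A = U diag(l) Uᴴ` with `U` unitary. -/
structure IsDiag (A U : Matrix n n ℂ) (l : n → ℝ) : Prop where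
  uni : Uᴴ * U = 1
  eq : A = U * diagonal (fun i => (l i : ℂ)) * Uᴴ

theorem uni_comm {U : Matrix n n ℂ} (h : Uᴴ * U = 1) : U * Uᴴ = 1 := mul_eq_one_comm.1 h

theorem IsDiag.uni' {A U : Matrix n n ℂ} {l : n → ℝ} (h : IsDiag A U l) : U * Uᴴ = 1 :=
  uni_comm h.uni

theorem isDiag_eigenvalues {A : Matrix n n ℂ} (hA : A.IsHermitian) :
    IsDiag A (hA.eigenvectorUnitary : Matrix n n ℂ) hA.eigenvalues := by
  refine ⟨?_, ?_⟩
  · have := Unitary.coe_star_mul_self hA.eigenvectorUnitary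
    simpa [star_eq_conjTranspose] using this
  · have := hA.spectral_theorem
    rw [Unitary.conjStarAlgAut_apply] at this
    simpa [star_eq_conjTranspose, Function.comp_def] using this

theorem exists_isDiag {A : Matrix n n ℂ} (hA : A.IsHermitian) : ∃ U l, IsDiag A U l :=
  ⟨_, _, isDiag_eigenvalues hA⟩

theorem IsDiag.conj {A U : Matrix n n ℂ} {l : n → ℝ} (h : IsDiag A U l) :
    Uᴴ * A * U = diagonal (fun i => (l i : ℂ)) := by
  conv_lhs => rw [h.eq]
  calc Uᴴ * (U * diagonal (fun i => (l i : ℂ)) * Uᴴ) * U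
      = (Uᴴ * U) * diagonal (fun i => (l i : ℂ)) * (Uᴴ * U) := by simp only [Matrix.mul_assoc]
    _ = _ := by rw [h.uni]; simp

theorem IsDiag.isHermitian {A U : Matrix n n ℂ} {l : n → ℝ} (h : IsDiag A U l) :
    A.IsHermitian := by
  rw [h.eq]
  have : (diagonal (fun i => (l i : ℂ))).IsHermitian := by
    rw [isHermitian_diagonal_iff]
    intro i
    simp [IsSelfAdjoint]
  exact isHermitian_mul_mul_conjTranspose U this

theorem IsDiag.charpoly {A U : Matrix n n ℂ} {l : n → ℝ} (h : IsDiag A U l) :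
    A.charpoly = ∏ i, (Polynomial.X - Polynomial.C (l i : ℂ)) := by
  conv_lhs => rw [h.eq, charpoly_mul_comm, ← Matrix.mul_assoc, h.uni, Matrix.one_mul]
  rw [charpoly_diagonal]

theorem IsDiag.det {A U : Matrix n n ℂ} {l : n → ℝ} (h : IsDiag A U l) :
    A.det = ((∏ i, l i : ℝ) : ℂ) := by
  conv_lhs => rw [h.eq, det_mul_comm, ← Matrix.mul_assoc, h.uni, Matrix.one_mul]
  simp [det_diagonal]

theorem IsDiag.trace {A U : Matrix n n ℂ} {l : n → ℝ} (h : IsDiag A U l) :
    A.trace = ((∑ i, l i : ℝ) : ℂ) := by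
  conv_lhs => rw [h.eq, trace_mul_comm, ← Matrix.mul_assoc, h.uni, Matrix.one_mul]
  simp [trace_diagonal]

theorem IsDiag.trace_re {A U : Matrix n n ℂ} {l : n → ℝ} (h : IsDiag A U l) :
    A.trace.re = ∑ i, l i := by
  rw [h.trace, Complex.ofReal_re]

theorem IsDiag.add_smul_one {A U : Matrix n n ℂ} {l : n → ℝ} (h : IsDiag A U l) (t : ℝ) :
    IsDiag ((t : ℂ) • (1 : Matrix n n ℂ) + A) U (fun i => t + l i) := by
  refine ⟨h.uni, ?_⟩
  have h1 : (diagonal (fun i => ((t + l i : ℝ) : ℂ))) =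
      (t : ℂ) • (1 : Matrix n n ℂ) + diagonal (fun i => (l i : ℂ)) := by
    ext i j
    by_cases hij : i = j
    · subst hij; simp
    · simp [hij]
  rw [h1, Matrix.mul_add, Matrix.add_mul, ← h.eq]
  simp [h.uni']

theorem IsDiag.smul {A U : Matrix n n ℂ} {l : n → ℝ} (h : IsDiag A U l) (t : ℝ) :
    IsDiag ((t : ℂ) • A) U (fun i => t * l i) := by
  refine ⟨h.uni, ?_⟩
  have h1 : (diagonal (fun i => ((t * l i : ℝ) : ℂ))) =
      (t : ℂ) • diagonal (fun i => (l i : ℂ)) := by
    ext i j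
    by_cases hij : i = j
    · subst hij; simp
    · simp [hij]
  rw [h1, Matrix.mul_smul, Matrix.smul_mul, ← h.eq]

/-- The sum of `g` over the (real parts of the) eigenvalues. -/
noncomputable def trf (g : ℝ → ℝ) (A : Matrix n n ℂ) : ℝ :=
  (A.charpoly.roots.map (fun z => g z.re)).sum

theorem IsDiag.trf {A U : Matrix n n ℂ} {l : n → ℝ} (h : IsDiag A U l) (g : ℝ → ℝ) :
    trf g A = ∑ i, g (l i) := by
  unfold QEnt.trf
  rw [h.charpoly, Polynomial.roots_prod]
  · simp only [Polynomial.roots_X_sub_C, Multiset.bind_singleton, Multiset.map_map,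
      Function.comp_def, Complex.ofReal_re]
    rfl
  · simp [Finset.prod_ne_zero_iff, Polynomial.X_sub_C_ne_zero]

theorem trf_reindex {m : Type*} [Fintype m] [DecidableEq m] (e : n ≃ m) (g : ℝ → ℝ)
    (A : Matrix n n ℂ) : trf g (reindex e e A) = trf g A := by
  unfold trf
  rw [charpoly_reindex]

theorem trf_submatrix {m : Type*} [Fintype m] [DecidableEq m] (e : m ≃ n) (g : ℝ → ℝ)
    (A : Matrix n n ℂ) : trf g (A.submatrix e e) = trf g A := by
  have := trf_reindex e.symm g A
  simpa using this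

/-- `tr A log A`. -/
noncomputable def N (A : Matrix n n ℂ) : ℝ := trf (fun u => u * Real.log u) A

theorem IsDiag.N {A U : Matrix n n ℂ} {l : n → ℝ} (h : IsDiag A U l) :
    N A = ∑ i, l i * Real.log (l i) := h.trf _

theorem N_submatrix {m : Type*} [Fintype m] [DecidableEq m] (e : m ≃ n)
    (A : Matrix n n ℂ) : N (A.submatrix e e) = N A := trf_submatrix e _ A

theorem vnEntropy_eq {A : Matrix n n ℂ} (hA : A.IsHermitian) :
    Crest.Quantum.vnEntropy A = - N A := by
  unfold Crest.Quantum.vnEntropy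
  rw [dif_pos hA, (isDiag_eigenvalues hA).N]

/-- The `k`-th diagonal entry of `A` in the basis given by the columns of `V`. -/
noncomputable def dg (V A : Matrix n n ℂ) (k : n) : ℝ := ((Vᴴ * A * V) k k).re

theorem IsDiag.dg_self {A U : Matrix n n ℂ} {l : n → ℝ} (h : IsDiag A U l) (k : n) :
    dg U A k = l k := by
  unfold dg
  rw [h.conj]
  simp

omit [DecidableEq n] in
theorem dg_add (V A B : Matrix n n ℂ) (k : n) : dg V (A + B) k = dg V A k + dg V B k := by
  unfold dg
  rw [Matrix.mul_add, Matrix.add_mul]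
  simp

omit [DecidableEq n] in
theorem dg_sub (V A B : Matrix n n ℂ) (k : n) : dg V (A - B) k = dg V A k - dg V B k := by
  unfold dg
  rw [Matrix.mul_sub, Matrix.sub_mul]
  simp

omit [DecidableEq n] in
theorem dg_smul (V A : Matrix n n ℂ) (t : ℝ) (k : n) : dg V ((t : ℂ) • A) k = t * dg V A k := by
  unfold dg
  rw [Matrix.mul_smul, Matrix.smul_mul]
  simp

omit [DecidableEq n] in
theorem dg_nonneg (V : Matrix n n ℂ) {A : Matrix n n ℂ} (hA : A.PosSemidef) (k : n) :
    0 ≤ dg V A k := by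
  classical
  unfold dg
  have := (hA.conjTranspose_mul_mul_same V).diag_nonneg (i := k)
  exact (Complex.nonneg_iff.1 this).1

theorem sum_dg {V : Matrix n n ℂ} (hV : Vᴴ * V = 1) (A : Matrix n n ℂ) :
    ∑ k, dg V A k = A.trace.re := by
  unfold dg
  have : (Vᴴ * A * V).trace = A.trace := by
    rw [trace_mul_comm, ← Matrix.mul_assoc, uni_comm hV, Matrix.one_mul]
  rw [← this, Matrix.trace, Complex.re_sum]
  rfl

theorem IsDiag.nonneg {A U : Matrix n n ℂ} {l : n → ℝ} (h : IsDiag A U l) (hA : A.PosSemidef)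
    (k : n) : 0 ≤ l k := by
  rw [← h.dg_self]; exact dg_nonneg _ hA _

theorem IsDiag.dg_eq {A U : Matrix n n ℂ} {l : n → ℝ} (h : IsDiag A U l) (V : Matrix n n ℂ)
    (k : n) : dg V A k = ∑ i, Complex.normSq ((Uᴴ * V) i k) * l i := by
  unfold dg
  have : Vᴴ * A * V = (Uᴴ * V)ᴴ * diagonal (fun i => (l i : ℂ)) * (Uᴴ * V) := by
    conv_lhs => rw [h.eq]
    simp only [conjTranspose_mul, conjTranspose_conjTranspose, Matrix.mul_assoc]
  rw [this]
  generalize Uᴴ * V = W
  rw [Matrix.mul_apply, Complex.re_sum]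
  refine Finset.sum_congr rfl fun i _ => ?_
  rw [Matrix.mul_diagonal, conjTranspose_apply]
  have : star (W i k) * (l i : ℂ) * W i k = ((Complex.normSq (W i k) * l i : ℝ) : ℂ) := by
    rw [Complex.ofReal_mul, Complex.normSq_eq_conj_mul_self]
    simp only [Complex.star_def]; ring
  rw [this, Complex.ofReal_re]

theorem sum_normSq_col {W : Matrix n n ℂ} (hW : Wᴴ * W = 1) (k : n) :
    ∑ i, Complex.normSq (W i k) = 1 := by
  have := congrArg (fun M : Matrix n n ℂ => (M k k).re) hW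
  simp only [Matrix.mul_apply, conjTranspose_apply, Complex.re_sum, one_apply_eq,
    Complex.one_re] at this
  rw [← this]
  refine Finset.sum_congr rfl fun i _ => ?_
  simp [Complex.normSq_apply]

theorem sum_normSq_row {W : Matrix n n ℂ} (hW : Wᴴ * W = 1) (i : n) :
    ∑ k, Complex.normSq (W i k) = 1 := by
  have h2 : (Wᴴ)ᴴ * Wᴴ = 1 := by simpa using uni_comm hW
  have := sum_normSq_col h2 i
  simpa [conjTranspose_apply, Complex.normSq_conj] using this

/-- Peierls-Jensen inequality. -/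
theorem IsDiag.peierls {A U : Matrix n n ℂ} {l : n → ℝ} (h : IsDiag A U l) {V : Matrix n n ℂ}
    (hV : Vᴴ * V = 1) {s : Set ℝ} {g : ℝ → ℝ} (hg : ConvexOn ℝ s g) (hl : ∀ i, l i ∈ s) :
    ∑ k, g (dg V A k) ≤ ∑ i, g (l i) := by
  have hW : (Uᴴ * V)ᴴ * (Uᴴ * V) = 1 := by
    simp only [conjTranspose_mul, conjTranspose_conjTranspose]
    calc Vᴴ * U * (Uᴴ * V) = Vᴴ * (U * Uᴴ) * V := by simp only [Matrix.mul_assoc]
      _ = 1 := by rw [h.uni', Matrix.mul_one, hV]
  calc ∑ k, g (dg V A k) ≤ ∑ k, ∑ i, Complex.normSq ((Uᴴ * V) i k) * g (l i) := by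
        refine Finset.sum_le_sum fun k _ => ?_
        rw [h.dg_eq]
        have := hg.map_sum_le (t := Finset.univ) (w := fun i => Complex.normSq ((Uᴴ * V) i k))
          (p := l) (fun i _ => Complex.normSq_nonneg _) (sum_normSq_col hW k) (fun i _ => hl i)
        simpa [smul_eq_mul] using this
    _ = ∑ i, g (l i) := by
        rw [Finset.sum_comm]
        refine Finset.sum_congr rfl fun i _ => ?_
        rw [← Finset.sum_mul, sum_normSq_row hW, one_mul]

/-- Peierls-Jensen inequality, concave form. -/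
theorem IsDiag.peierls_concave {A U : Matrix n n ℂ} {l : n → ℝ} (h : IsDiag A U l)
    {V : Matrix n n ℂ} (hV : Vᴴ * V = 1) {s : Set ℝ} {g : ℝ → ℝ} (hg : ConcaveOn ℝ s g)
    (hl : ∀ i, l i ∈ s) : ∑ i, g (l i) ≤ ∑ k, g (dg V A k) := by
  have := h.peierls hV hg.neg hl
  simp only [Pi.neg_apply, Finset.sum_neg_distrib] at this
  linarith

theorem sum_dg_log_le_N {A V : Matrix n n ℂ} (hA : A.PosSemidef) (hV : Vᴴ * V = 1) :
    ∑ k, dg V A k * Real.log (dg V A k) ≤ N A := by
  obtain ⟨U, l, h⟩ := exists_isDiag hA.isHermitian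
  rw [h.N]
  exact h.peierls hV Real.convexOn_mul_log (fun i => h.nonneg hA i)

end Crest.Agent.Lib.QEnt
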